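import Vale.Agent.P114.H408.Sets

open scoped Classical ENNReal

open MeasureTheory

/-- Self-similar measures and self-similar sets on the line, exact overlaps allowed: the
entropy-rate dimension conjecture (Q1), exact dimensionality with the value of Q1, the
characterization of the dimension drop, and the dimension of self-similar sets. -/
theorem Vale.Agent.Results.P114.ExactDimensional.result
    {Λ : Type} [Fintype Λ] [Nonempty Λ]
    (r t : Λ → ℝ) (hr0 : ∀ i, r i ≠ 0) (hr1 : ∀ i, |r i| < 1) :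
    (∀ p : Λ → ℝ, (∀ i, 0 < p i) → ∑ i, p i = 1 →
      (∃! μ : Measure ℝ, Vale.Agent.P114.IsSelfSimilar r t p μ) ∧
      ∀ μ : Measure ℝ, Vale.Agent.P114.IsSelfSimilar r t p μ →
        Vale.Agent.P114.lowerDimH μ = ENNReal.ofReal
          (min 1 (Vale.Agent.P114.hRW r t p / Vale.Agent.P114.lyap r p)) ∧
        (∀ᵐ x ∂μ, Vale.Agent.P114.HasLocalDim μ x
          (min 1 (Vale.Agent.P114.hRW r t p / Vale.Agent.P114.lyap r p))) ∧
        (Vale.Agent.P114.NoExactOverlaps r t → Vale.Agent.P114.lowerDimH μ = ENNReal.ofReal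
          (min 1 ((-∑ i, p i * Real.logb 2 (p i)) / Vale.Agent.P114.lyap r p))) ∧
        (-∑ i, p i * Real.logb 2 (p i) ≤ Vale.Agent.P114.lyap r p →
          (Vale.Agent.P114.lowerDimH μ = ENNReal.ofReal
            ((-∑ i, p i * Real.logb 2 (p i)) / Vale.Agent.P114.lyap r p) ↔
              Vale.Agent.P114.NoExactOverlaps r t))) ∧
    (∀ K : Set ℝ, Vale.Agent.P114.IsAttractor r t K → ∀ s : ℝ, 0 ≤ s → ∑ i, |r i| ^ s = 1 →
      (Vale.Agent.P114.NoExactOverlaps r t → dimH K = ENNReal.ofReal (min 1 s)) ∧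
      (s ≤ 1 → (dimH K = ENNReal.ofReal s ↔ Vale.Agent.P114.NoExactOverlaps r t))) := by
  refine ⟨fun p hp hp1 => ⟨?_, fun μ hμ => ?_⟩, fun K hK s hs hs1 => ⟨fun hno => ?_, fun hs' =>
    ⟨fun h => ?_, fun hno => ?_⟩⟩⟩
  · obtain ⟨μ, hμ, -⟩ := Vale.Agent.P114.LD.exists_selfSimilar r t p hr1 (fun i => (hp i).le) hp1
    exact ⟨μ, hμ, fun μ' hμ' => Vale.Agent.P114.LD.unique_selfSimilar r t p hr0 hr1
      (fun i => (hp i).le) hp1 μ' μ hμ' hμ⟩
  · have hf := Vale.Agent.P114.LD.formula r t p hr0 hr1 hp hp1 μ hμ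
    have hL := Vale.Agent.P114.lyap_pos r p hr0 hr1 (fun i => (hp i).le) hp1
    refine ⟨hf, Vale.Agent.P114.LD.exact_dim r t p hr0 hr1 hp hp1 μ hμ, fun hno => ?_,
      fun hle => ⟨fun h => ?_, fun hno => ?_⟩⟩
    · rw [hf, Vale.Agent.P114.LD.hRW_eq r t p hp hp1 hno]
    · by_contra hno
      have h1 := Vale.Agent.P114.LD.hRW_lt r t p hp hp1 hno
      have h2 : Vale.Agent.P114.hRW r t p / Vale.Agent.P114.lyap r p
          < (-∑ i, p i * Real.logb 2 (p i)) / Vale.Agent.P114.lyap r p :=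
        div_lt_div_of_pos_right h1 hL
      have h3 : 0 ≤ Vale.Agent.P114.hRW r t p / Vale.Agent.P114.lyap r p := by
        refine div_nonneg ?_ hL.le
        refine Vale.Agent.P114.le_hRW r t p 0 fun n _ => ?_
        exact div_nonneg (Vale.Agent.P114.stepEntropy_nonneg r t p (fun i => (hp i).le) hp1 n)
          (Nat.cast_nonneg n)
      rw [hf] at h
      have h4 : ENNReal.ofReal
          (min 1 (Vale.Agent.P114.hRW r t p / Vale.Agent.P114.lyap r p)) < ENNReal.ofReal
          ((-∑ i, p i * Real.logb 2 (p i)) / Vale.Agent.P114.lyap r p) := by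
        rw [ENNReal.ofReal_lt_ofReal_iff (h3.trans_lt h2)]
        exact lt_of_le_of_lt (min_le_right _ _) h2
      exact absurd h h4.ne
    · rw [hf, Vale.Agent.P114.LD.hRW_eq r t p hp hp1 hno, min_eq_right]
      rw [div_le_one hL]
      exact hle
  · exact Vale.Agent.P114.LD.dimH_attractor r t hr0 hr1 hno K hK s hs hs1
  · by_contra hno
    exact absurd h (Vale.Agent.P114.LD.dimH_attractor_lt r t hr0 hr1 hno K hK s hs1).ne
  · rw [Vale.Agent.P114.LD.dimH_attractor r t hr0 hr1 hno K hK s hs hs1, min_eq_right hs']
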