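import Vale.Agent.P114.H172.Final

open scoped Classical ENNReal

open MeasureTheory

/-- The entropy-rate dimension conjecture (Q1, clause 1), and its consequences for projections of
self-similar measures and self-similar sets of a finite-dimensional space (clauses 2 and 3) and for
sums of self-similar sets (clause 4). Exact overlaps are allowed where not excluded. -/
theorem Vale.Agent.Results.P114.Projections.result
    {Λ : Type} [Fintype Λ] [Nonempty Λ]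
    (r : Λ → ℝ) (hr0 : ∀ i, r i ≠ 0) (hr1 : ∀ i, |r i| < 1) :
    -- (1) Q1
    (∀ t p : Λ → ℝ, (∀ i, 0 < p i) → ∑ i, p i = 1 →
      ∀ μ : Measure ℝ, Vale.Agent.P114.IsHomMeasure r t p μ →
        Vale.Agent.P114.lowerDimH μ = ENNReal.ofReal
          (min 1 (Vale.Agent.P114.homRate r t p / Vale.Agent.P114.lyap r p))) ∧
    (∀ (V : Type) [NormedAddCommGroup V] [NormedSpace ℝ V] [FiniteDimensional ℝ V] [Nontrivial V]
      [MeasurableSpace V] [BorelSpace V] (t : Λ → V),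
      -- (2) projections by all functionals outside countably many proper subspaces
      (∃ 𝓗 : Set (Submodule ℝ (V →L[ℝ] ℝ)), 𝓗.Countable ∧ (∀ W ∈ 𝓗, W ≠ ⊤) ∧
        ∀ u : V →L[ℝ] ℝ, (∀ W ∈ 𝓗, u ∉ W) →
          (∀ p : Λ → ℝ, (∀ i, 0 < p i) → ∑ i, p i = 1 →
            ∀ μ : Measure V, Vale.Agent.P114.IsHomMeasure r t p μ →
              Vale.Agent.P114.lowerDimH (μ.map u) = ENNReal.ofReal
                (min 1 (Vale.Agent.P114.homRate r t p / Vale.Agent.P114.lyap r p))) ∧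
          (Vale.Agent.P114.HomFree r t → ∀ K : Set V, Vale.Agent.P114.IsHomSet r t K →
            ∀ s : ℝ, 0 ≤ s → ∑ i, |r i| ^ s = 1 → dimH (u '' K) = ENNReal.ofReal (min 1 s))) ∧
      -- (3) exact overlaps and the dimension of sets
      (∀ K : Set V, Vale.Agent.P114.IsHomSet r t K →
        ∀ s : ℝ, 0 ≤ s → s ≤ 1 → ∑ i, |r i| ^ s = 1 →
          (dimH K = ENNReal.ofReal s ↔ Vale.Agent.P114.HomFree r t) ∧
          ∀ u : V →L[ℝ] ℝ, dimH (u '' K) = ENNReal.ofReal s ↔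
            Vale.Agent.P114.HomFree r (fun i => u (t i)))) ∧
    -- (4) sums of self-similar sets
    (∀ (Λ₁ Λ₂ : Type) [Fintype Λ₁] [Nonempty Λ₁] [Fintype Λ₂] [Nonempty Λ₂] (ρ : ℝ),
      ρ ≠ 0 → |ρ| < 1 → ∀ (a : Λ₁ → ℝ) (b : Λ₂ → ℝ),
      Vale.Agent.P114.HomFree (fun _ => ρ) a → Vale.Agent.P114.HomFree (fun _ => ρ) b →
      ∀ K₁ K₂ : Set ℝ, Vale.Agent.P114.IsHomSet (fun _ => ρ) a K₁ →
        Vale.Agent.P114.IsHomSet (fun _ => ρ) b K₂ →
        {c : ℝ | dimH ((fun z : ℝ × ℝ => z.1 + c * z.2) '' (K₁ ×ˢ K₂)) ≠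
          min 1 (dimH K₁ + dimH K₂)}.Countable) :=
  ⟨fun t p hp hp1 μ hμ => Vale.Agent.P114.H172.q1 r t p hr0 hr1 hp hp1 μ hμ,
    fun V _ _ _ _ _ _ t => Vale.Agent.P114.H172.main r hr0 hr1 V t,
    fun Λ₁ Λ₂ _ _ _ _ ρ h0 h1 a b ha hb K₁ K₂ h₁ h₂ =>
      Vale.Agent.P114.H172.sums ρ h0 h1 a b ha hb K₁ K₂ h₁ h₂⟩
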